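import Crest.Agent.X212.Lab56.Gd
import Crest.Agent.X212.Pic56.Line

/-!
# X212/Lu3/Main (helper3): `Lab56.UStmt`, the units of the exterior of a tube
-/

set_option autoImplicit false
set_option linter.unusedSectionVars false

open Set Filter Topology Function
open scoped ContDiff Manifold
open Crest.Agent.X212.Line51
open Crest.Agent.X212.Rod53 hiding X cj
open Crest.Agent.X212.Pic56
open Crest.Agent.X212.Lab56 (Lg H1 thM UStmt)
open Crest.Agent.X212.Glue52 (dir dir_mul norm_mul_dir contMDiffAt_dir)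
open Crest.Agent.X212.Cyl58 (stp stp_zero stp_one contDiff_stp extend_eventuallyEq)
open Complex (exp)

noncomputable section

namespace Crest.Agent.X212.Lu3

/-- the punctured solid torus -/
abbrev Z : Set (Circle × ℂ) := {w | w.2 ≠ 0}

theorem dir_coe (u : Circle) : dir u = u := by simpa using dir_mul one_pos u

theorem cont_dir : ContinuousOn (fun w : Circle × ℂ => dir w.2) Z := fun _ hw =>
  ((contMDiffAt_dir hw).continuousAt.comp continuousAt_snd).continuousWithinAt

theorem cont_coe {X : Type*} [TopologicalSpace X] {g : X → Circle} {S : Set X} (h : ContinuousOn g S)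
    (k : ℤ) : ContinuousOn (fun x => ((g x : ℂ) ^ k)⁻¹) S :=
  ((continuous_circle_zpow k).comp_continuousOn h).inv₀ fun _ _ => zpow_ne_zero _ (Circle.coe_ne_zero _)

theorem coe_ne (u : Circle) (k : ℤ) : ((u : ℂ) ^ k)⁻¹ ≠ 0 := inv_ne_zero (zpow_ne_zero _ u.coe_ne_zero)

theorem hasLog_zpow {X : Type*} [TopologicalSpace X] {φ : X → ℂ} {S : Set X} (h : HasLog φ S) (k : ℤ) :
    HasLog (fun x => φ x ^ k) S :=
  let ⟨ψ, h1, h2⟩ := h
  ⟨fun x => k * ψ x, continuousOn_const.mul h1, fun x hx => by simp only [h2 x hx, Complex.exp_int_mul]⟩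

/-- the degrees of a unit on the punctured solid torus -/
theorem exists_chT {φ : Circle × ℂ → ℂ} (hc : ContinuousOn φ Z) (h0 : ∀ w ∈ Z, φ w ≠ 0) :
    ∃ η : Z2, HasLog (fun w => φ w * (chT η w : ℂ)⁻¹) Z := by
  obtain ⟨i, j, h⟩ := exists_deg_torus (φ := fun z => φ (z.1, z.2))
    (hc.comp_continuous (by fun_prop) fun z => z.2.coe_ne_zero) fun z => h0 _ z.2.coe_ne_zero
  have e : ∀ w, (chT (i, j) w : ℂ)⁻¹ = ((w.1 : ℂ) ^ i)⁻¹ * ((dir w.2 : ℂ) ^ j)⁻¹ := fun w => by
    simp [chT, mul_comm]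
  refine ⟨(i, j), HasLog.of_deform (S' := Z) (S₀ := {w | w ∈ Z ∧ ‖w.2‖ = 1}) ?_ (fun w hw =>
    mul_ne_zero (h0 w hw) (inv_ne_zero (Circle.coe_ne_zero _)))
    (h := fun z => (z.2.1, ((1 - z.1 + z.1 * ‖z.2.2‖ : ℝ) : ℂ) * dir z.2.2)) ?_ (fun t ht w hw => ?_)
    (fun w _ => by simp) (fun w _ => by simp [norm_mul_dir]) ?_⟩
  · simp only [e]
    exact hc.mul ((cont_coe continuousOn_fst i).mul (cont_coe cont_dir j))
  · exact (by fun_prop : Continuous fun z : ℝ × Circle × ℂ => z.2.1).continuousOn.prodMk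
      ((by fun_prop : Continuous fun z : ℝ × Circle × ℂ =>
        ((1 - z.1 + z.1 * ‖z.2.2‖ : ℝ) : ℂ)).continuousOn.mul (continuous_subtype_val.comp_continuousOn
          (cont_dir.comp continuousOn_snd fun _ h => h.2)))
  · refine mul_ne_zero (Complex.ofReal_ne_zero.2 (ne_of_gt ?_)) (Circle.coe_ne_zero _)
    have := norm_pos_iff.2 hw
    rcases ht.1.eq_or_lt with k | k
    · simp [← k]
    · nlinarith [ht.2, mul_pos k this]
  · refine (h.comp (g := fun w => (w.1, dir w.2)) (continuousOn_fst.prodMk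
      (cont_dir.mono fun _ h => h.1)) (mapsTo_univ _ _)).congr fun w hw => ?_
    have : (dir w.2 : ℂ) = w.2 := by simpa [hw.2] using norm_mul_dir w.2
    rw [e, mul_inv, this]

variable {EN HN : Type} [NormedAddCommGroup EN] [NormedSpace ℝ EN] [FiniteDimensional ℝ EN]
  [TopologicalSpace HN] {IN : ModelWithCorners ℝ EN HN} [IN.Boundaryless]
  {N : Type} [TopologicalSpace N] [ChartedSpace HN N] [IsManifold IN ∞ N] [T2Space N]
  (T : Tb IN N) {c : N → ℂ}

theorem cont_τ : ContinuousOn T.τ Z := T.oe.continuous.continuousOn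

theorem maps_τ : MapsTo T.τ Z T.Ex := fun _ => T.τ_mem.2

theorem cont_ovr {f : N → ℂ} {j : Circle × ℂ → ℂ} (hf : ContinuousOn f T.Ex) (hj : Continuous j)
    (e : ∀ w ∈ Z, f (T.τ w) = j w) : Continuous (T.ovr f j) := continuous_iff_continuousAt.2 fun p => by
  rcases T.Ex_or p with h | ⟨u, rfl⟩
  · exact (hf.continuousAt (T.isOpen_Ex.mem_nhds h)).congr
      (eventually_of_mem (T.isOpen_Ex.mem_nhds h) fun _ k => (T.ovr_of k).symm)
  · exact T.oe.isOpenEmbedding.continuousAt_iff.1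
      (hj.continuousAt.congr (.of_forall fun w => (T.ovr_τ (e w)).symm))

/-- a logarithm on the exterior extends over the core -/
theorem hasLog_univ (hc : Continuous c) (h0 : ∀ p, c p ≠ 0) (h : HasLog c T.Ex) : HasLog c univ := by
  obtain ⟨L', a', b'⟩ : HasLog (fun w => c (T.τ w)) univ := HasLog.of_deform (S' := univ) (S₀ := Z)
    (hc.comp T.oe.continuous).continuousOn (fun _ _ => h0 _)
    (h := fun z => (z.2.1, (1 - z.1 : ℝ) + z.1 * z.2.2)) (by fun_prop) (fun _ _ _ _ => trivial)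
    (fun w _ => by simp) (fun w _ => by simp) (h.comp (cont_τ T) (maps_τ T))
  obtain ⟨L, a, b⟩ := h
  have k : ∀ w ∈ Z, exp (L (T.τ w) - L' w) = 1 := fun w hw => by
    rw [Complex.exp_sub, ← b _ (maps_τ T hw), ← b' w trivial, div_self (h0 _)]
  have e : ∀ w ∈ Z, L (T.τ w) = L' w + (L (T.τ (1, 1)) - L' (1, 1)) := fun w hw => by
    rw [← const_of_exp_eq_one (ψ := fun w => L (T.τ w) - L' w)
      (isConnected_iff_connectedSpace.2 (inferInstanceAs (ConnectedSpace Ext52.Cz))).isPreconnected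
      ((a.comp (cont_τ T) (maps_τ T)).sub (a'.mono (subset_univ _))) k hw one_ne_zero, add_sub_cancel]
  refine ⟨_, (cont_ovr T a ((continuousOn_univ.1 a').add continuous_const) e).continuousOn,
    fun p _ => ?_⟩
  rcases T.Ex_or p with h | ⟨u, rfl⟩
  · rw [T.ovr_of h, b p h]
  · rw [T.ovr_core, Pi.add_apply, Complex.exp_add, k (1, 1) one_ne_zero, mul_one]
    exact b' _ trivial

/-- units without meridional degree -/
theorem hasLog_Ex (hN : Lg N) (hc : ContinuousOn c T.Ex) (h0 : ∀ p ∈ T.Ex, c p ≠ 0) {j : ℤ}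
    (h : HasLog (fun w => c (T.τ w) * ((w.1 : ℂ) ^ j)⁻¹) Z) : j = 0 ∧ HasLog c T.Ex := by
  obtain ⟨L, a, b⟩ := h
  have s : Continuous fun w : Circle × ℂ => (stp 1 2 ‖w.2‖ : ℂ) :=
    Complex.continuous_ofReal.comp ((contDiff_stp 1 2).continuous.comp (by fun_prop))
  have c1 : ContinuousOn (extend T.τ (fun w => (1 - stp 1 2 ‖w.2‖) * L w) 0) T.Ex := fun p hp => by
    refine ContinuousAt.continuousWithinAt ?_
    by_cases e : p ∈ range T.τ
    · obtain ⟨w, rfl⟩ := e
      exact T.oe.isOpenEmbedding.continuousAt_iff.1 ((((continuous_const.sub s).continuousOn.mul a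
        ).continuousAt (isOpen_ne2.mem_nhds (T.τ_mem.1 hp))).congr
          (.of_forall fun w => (T.inj.extend_apply _ _ w).symm))
    · exact (continuousAt_const (y := 0)).congr (extend_eventuallyEq (h := 0) T.inj (T.isClosed_tube 2) (fun w hw => by
        simp [stp_one one_lt_two (not_le.1 hw).le]) fun k => e (image_subset_range _ _ k)).symm
  have c2 : Continuous fun w : Circle × ℂ => (stp 1 2 ‖w.2‖ : ℂ) * L w :=
    continuous_iff_continuousAt.2 fun w => by
      by_cases e : w.2 = 0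
      · refine (continuousAt_const (y := 0)).congr ?_
        have := near_core w.1 one_pos
        rw [← e] at this
        filter_upwards [this] with z hz
        simp [stp_zero one_lt_two hz]
      · exact s.continuousAt.mul (a.continuousAt (isOpen_ne2.mem_nhds e))
  have c3 := cont_ovr T (j := fun w => (w.1 : ℂ) ^ j * exp (stp 1 2 ‖w.2‖ * L w)) (hc.mul c1.neg.cexp)
    (((continuous_circle_zpow j).comp continuous_fst).mul c2.cexp) fun w hw => by
      have := b w hw
      rw [mul_inv_eq_iff_eq_mul₀ (zpow_ne_zero _ (Circle.coe_ne_zero _))] at this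
      simp only [Pi.mul_apply, Pi.neg_apply]
      rw [T.inj.extend_apply, this, mul_comm (exp _), mul_assoc, ← Complex.exp_add]
      congr 2
      ring
  have l := hN _ c3 fun p => by
    rcases T.Ex_or p with h | ⟨u, rfl⟩
    · rw [T.ovr_of h]
      exact mul_ne_zero (h0 p h) (Complex.exp_ne_zero _)
    · rw [T.ovr_core]
      exact mul_ne_zero (zpow_ne_zero _ (Circle.coe_ne_zero _)) (Complex.exp_ne_zero _)
  refine ⟨deg_unique ((l.comp (g := fun u => T.τ (u, 0)) (T.oe.continuous.comp (by fun_prop)).continuousOn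
    (mapsTo_univ _ _)).congr fun u _ => by simp [T.ovr_core, stp_zero one_lt_two zero_le_one]),
    ((l.mono (subset_univ _)).mul ⟨_, c1, fun _ _ => rfl⟩).congr fun p hp => ?_⟩
  simp only [T.ovr_of hp, Pi.mul_apply, Pi.neg_apply]
  rw [mul_assoc, ← Complex.exp_add, neg_add_cancel, Complex.exp_zero, mul_one]

variable {T} {θ : N → Circle} {δ a b : Z2}

theorem cont_ang (h : Ang T θ δ) : ContinuousOn θ T.Ex := fun p hp =>
  (h.sm p hp).continuousAt.continuousWithinAt

theorem h1 (hN : Lg N) (h : Ang T θ δ) (hδ : IsCoprime δ.1 δ.2) (h0 : δ.2 ≠ 0) : H1 θ T.Ex := by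
  intro c hc hc0
  obtain ⟨η, l⟩ := exists_chT (hc.comp (cont_τ T) (maps_τ T)) fun w hw => hc0 _ (maps_τ T hw)
  have k := (hasLog_Ex T hN (c := fun p => c p ^ δ.2 * ((θ p : ℂ) ^ η.2)⁻¹)
    ((hc.zpow₀ _ fun p hp => .inl (hc0 p hp)).mul (cont_coe (cont_ang h) _))
    (fun p hp => mul_ne_zero (zpow_ne_zero _ (hc0 p hp)) (coe_ne _ _)) (j := η.1 * δ.2 - δ.1 * η.2)
    ((hasLog_zpow l δ.2).congr fun w hw => by
      have : chT δ w ^ η.2 * w.1 ^ (η.1 * δ.2 - δ.1 * η.2) = chT η w ^ δ.2 := by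
        rw [chT, chT, mul_zpow, mul_zpow, ← zpow_mul, ← zpow_mul, ← zpow_mul, ← zpow_mul,
          mul_right_comm, ← zpow_add, add_sub_cancel, mul_comm δ.2]
      rw [h.eq w hw, mul_zpow, inv_zpow, ← Circle.coe_zpow (chT η w), ← this, mul_assoc, ← mul_inv]
      simp)).1
  obtain ⟨i, hi⟩ : δ.2 ∣ η.2 := hδ.symm.dvd_of_dvd_mul_left ⟨η.1, by linarith⟩
  have e1 : η.1 = δ.1 * i := mul_right_cancel₀ h0 (by rw [hi] at k; linarith)
  refine ⟨i, (hasLog_Ex T hN (hc.mul (cont_coe (cont_ang h) _))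
    (fun p hp => mul_ne_zero (hc0 p hp) (coe_ne _ _)) (j := 0) (l.congr fun w hw => ?_)).2⟩
  simp [h.eq w hw, chT, e1, hi, mul_zpow, zpow_mul]

variable {Y : Type} [TopologicalSpace Y] [ChartedSpace E3 Y] [IsManifold (𝓡 3) ∞ Y] [T2Space Y]
  (F : Fl T a b (𝓡 3) Y)

include F in
theorem fill (h : Ang T θ δ) (h1 : H1 θ T.Ex) (h0 : dot δ a ≠ 0) : Lg Y := by
  intro c hc hc0
  obtain ⟨k, l⟩ := h1 (fun p => c (F.e p)) (hc.comp_continuousOn F.pe.contMDiffOn_toFun.continuousOn)
    fun _ _ => hc0 _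
  have l1 : HasLog (fun ζ : ℂ => c (F.it (1, ζ))) univ := HasLog.of_deform (S' := univ) (S₀ := {0})
    (hc.comp (F.oeT.continuous.comp (by fun_prop))).continuousOn (fun _ _ => hc0 _)
    (h := fun z => z.1 * z.2) (by fun_prop) (fun _ _ _ _ => trivial) (fun w _ => by simp)
    (fun w _ => by simp) ((HasLog.const (hc0 _) _).congr fun _ e => by rw [e])
  have g : ∀ d : Circle, gl a b (1, d) = (d ^ a.1, ((d ^ a.2 : Circle) : ℂ)) := fun d => by
    simp [gl, dir_coe]
  have l2 := l.comp (g := fun d : Circle => T.τ (gl a b (1, d))) (T := univ) (by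
    simp only [g]
    exact (T.oe.continuous.comp ((continuous_zpow _).prodMk
      (continuous_subtype_val.comp (continuous_zpow _)))).continuousOn) fun d _ => maps_τ T (gl_ne.2 d.coe_ne_zero)
  have k0 : dot δ a * k = 0 := deg_unique (((l1.comp (g := fun d : Circle => (d : ℂ)) (T := univ)
    (by fun_prop) (mapsTo_univ _ _)).mul l2.inv).congr fun d _ => by
      rw [F.e_τ d.coe_ne_zero, h.eq _ (gl_ne.2 d.coe_ne_zero), chT_gl _ _ _ d.coe_ne_zero, mul_inv,
        mul_inv_cancel_left₀ (hc0 _), inv_inv, dir_coe]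
      simp [zpow_mul])
  obtain rfl := (mul_eq_zero.1 k0).resolve_left h0
  refine hasLog_univ F.tb hc hc0 ((l.comp (g := F.pe.symm) (T := F.pe.target)
    F.pe.contMDiffOn_invFun.continuousOn F.pe.toPartialEquiv.mapsTo_symm).congr
      (fun y hy => ?_) |>.mono fun y hy => F.mem_pe_target.2 hy)
  rw [zpow_zero, inv_one, mul_one]
  exact congrArg c (F.pe.right_inv hy).symm

theorem mer (h : Ang T θ (0, 1)) : Ang F.mer (thM F θ) (-a.1, a.2) := by
  have e : ∀ p ∈ T.Ex, thM F θ (F.e p) = T.ang p ^ a.2 * θ p ^ (-a.1) := fun p hp => by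
    rw [thM, F.tb.ovr_of (F.bijOn_e.mapsTo hp), F.pe_symm_e hp]
  refine ⟨fun q hq => ?_, fun w hw => ?_⟩
  · rcases F.surj' q with ⟨p, hp, rfl⟩ | ⟨u, rfl⟩
    · exact Glue52.contMDiffAt_of_comp (F.ld_e hp) (((cm_zpow (T.cm_ang ((F.e_mem_mer hp).1 hq)) _).mul
        (cm_zpow (h.sm p hp) _)).congr_of_eventuallyEq (eventually_of_mem (T.isOpen_Ex.mem_nhds hp) e))
    · refine Glue52.contMDiffAt_of_comp (F.oeT.loc _)
        ((cm_zpow contMDiffAt_fst (-dt a b)).congr_of_eventuallyEq ?_)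
      filter_upwards [near_core u (ε := 1 / 4) (by norm_num)] with w hw
      rw [comp_apply, thM]
      refine F.tb.ovr_τ (j := fun w => w.1 ^ (-dt a b)) (w := w) fun k => ?_
      rw [Fl.tb_τ, ← F.e_τ k, F.pe_symm_e (T.τ_mem.2 (gl_ne.2 k)), T.ang_τ, ga_near (by rwa [norm_gl]),
        h.eq _ (gl_ne.2 k), chT, zpow_zero, zpow_one, one_mul, dir_gl _ _ k]
      refine (chT_mon (a.2, -a.1) a b _ _).trans ?_
      rw [show dot (a.2, -a.1) a = 0 by simp [dot, mul_comm], zpow_zero, one_mul]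
      simp [dot, dt, mul_comm, sub_eq_add_neg]
  · rw [F.mer_τ, ← T.mer_τ, e _ (T.mer_mem w), T.ang_mer hw, T.mer_τ, h.eq _ (mtb_ne w), mul_comm]
    simp [chT, mtb, sw_eq, dir_mul (norm_pos_iff.2 (mer_ne w.2))]

/-- **`LAB-U`** -/
theorem uStmt : UStmt :=
  ⟨fun _ => hasLog_sphere (by simp), h1, fun F _ => fill F, fun F _ => mer F⟩

end Crest.Agent.X212.Lu3
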